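import Vale.Agent.P011.H97c.WedC
import Vale.Agent.P011.H268.Nrd

/-!
**The value of a local homomorphism at the reduced norm.**  `D` is a topological division ring,
central of degree `n` over `K`, and `Psi` is a function on `D` which is multiplicative near one and
such that for every `x ≠ 0` the elements close to one (depending on `x`) have the same value as
their conjugates by `x`.  Then `Psi (Nrd g) = Psi g ^ n` for all `g` in one neighbourhood of one.
-/

open Polynomial Topology Filter Module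

set_option linter.unusedSectionVars false

namespace Vale.Agent.P011.H97c

section top

variable {D : Type*} [DivisionRing D] [TopologicalSpace D] [IsTopologicalRing D]
  [ContinuousInv₀ D] [T1Space D] {E : Type*} [CommGroup E]

/-- A local homomorphism near one. -/
def LocHom (Psi : D → E) : Prop :=
  ∃ V ∈ 𝓝 (1 : D), ∀ g ∈ V, ∀ h ∈ V, Psi (g * h) = Psi g * Psi h

/-- The invariance of the germ at one under conjugation. -/
def ConjInv (Psi : D → E) : Prop :=
  ∀ x : D, x ≠ 0 → ∀ᶠ h in 𝓝 (1 : D), Psi (x * h * x⁻¹) = Psi h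

theorem LocHom.one {Psi : D → E} (h : LocHom Psi) : Psi 1 = 1 := by
  obtain ⟨V, hV, h⟩ := h
  have h1 : (1 : D) ∈ V := mem_of_mem_nhds hV
  have h2 := h 1 h1 1 h1
  rw [mul_one] at h2
  exact left_eq_mul.mp h2

theorem ev_ne_zero {x : D} (hx : x ≠ 0) : ∀ᶠ g in 𝓝 x, g ≠ 0 := isOpen_ne.mem_nhds hx

theorem LocHom.inv {Psi : D → E} (h : LocHom Psi) : ∀ᶠ g in 𝓝 (1 : D), Psi g⁻¹ = (Psi g)⁻¹ := by
  have h1 := h.one
  obtain ⟨V, hV, h⟩ := h
  have h2 : ∀ᶠ g in 𝓝 (1 : D), g⁻¹ ∈ V := by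
    have h3 : Tendsto (fun g : D => g⁻¹) (𝓝 1) (𝓝 1) := by
      have := (continuousAt_inv₀ (one_ne_zero (α := D))).tendsto
      rwa [inv_one] at this
    exact h3.eventually hV
  filter_upwards [hV, h2, ev_ne_zero (one_ne_zero (α := D))] with g hg hg' hg0
  have h4 := h g hg _ hg'
  rw [mul_inv_cancel₀ hg0, h1] at h4
  exact eq_inv_of_mul_eq_one_right h4.symm

/-- Conjugation by the elements close to a given element. -/
theorem conj_near {Psi : D → E} (hL : LocHom Psi) (hC : ConjInv Psi) {x0 : D} (hx0 : x0 ≠ 0) :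
    ∀ᶠ p in 𝓝 ((x0 : D), (1 : D)), Psi (p.1 * p.2 * p.1⁻¹) = Psi p.2 := by
  have hI := hL.inv
  obtain ⟨V, hV, hm⟩ := hL
  obtain ⟨W, hW⟩ : ∃ W : Set D, W ∈ 𝓝 (1 : D) ∧ ∀ g ∈ W, Psi (x0 * g * x0⁻¹) = Psi g :=
    ⟨_, hC x0 hx0, fun g hg => hg⟩
  -- the four elements are close to one
  have hfst : Tendsto (fun p : D × D => x0⁻¹ * p.1) (𝓝 (x0, 1)) (𝓝 1) := by
    have h1 : ContinuousAt (fun p : D × D => x0⁻¹ * p.1) (x0, 1) :=
      continuousAt_const.mul continuousAt_fst
    have h2 := h1.tendsto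
    simpa only [inv_mul_cancel₀ hx0] using h2
  have hsnd : Tendsto (fun p : D × D => p.2) (𝓝 (x0, 1)) (𝓝 1) := continuousAt_snd.tendsto
  have hinv : Tendsto (fun p : D × D => (x0⁻¹ * p.1)⁻¹) (𝓝 (x0, 1)) (𝓝 1) := by
    have := hfst.inv₀ one_ne_zero
    rwa [inv_one] at this
  have hus : Tendsto (fun p : D × D => x0⁻¹ * p.1 * p.2) (𝓝 (x0, 1)) (𝓝 1) := by
    have := hfst.mul hsnd
    rwa [mul_one] at this
  have husi : Tendsto (fun p : D × D => x0⁻¹ * p.1 * p.2 * (x0⁻¹ * p.1)⁻¹) (𝓝 (x0, 1)) (𝓝 1) := by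
    have := hus.mul hinv
    rwa [mul_one] at this
  filter_upwards [hfst.eventually hV, hsnd.eventually hV, hinv.eventually hV, hus.eventually hV,
    husi.eventually hW.1, hfst.eventually hI,
    (continuousAt_fst (p := (x0, (1 : D)))).eventually (ev_ne_zero hx0)] with p h1 h2 h3 h4 h5 h6 h7
  have h8 := hW.2 _ h5
  have h9 : x0 * (x0⁻¹ * p.1 * p.2 * (x0⁻¹ * p.1)⁻¹) * x0⁻¹ = p.1 * p.2 * p.1⁻¹ := by
    rw [mul_inv_rev, inv_inv]
    simp only [mul_assoc]
    rw [mul_inv_cancel_left₀ hx0, mul_inv_cancel₀ hx0, mul_one]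
  rw [← h9, h8, hm _ h4 _ h3, hm _ h1 _ h2, h6, mul_comm (Psi (x0⁻¹ * p.1)), mul_assoc,
    mul_inv_cancel, mul_one]

/-- The values at the products of lists of given length. -/
theorem list_prod_near {Psi : D → E} (hL : LocHom Psi) (n : ℕ) {V : Set D} (hV : V ∈ 𝓝 (1 : D)) :
    ∃ W ∈ 𝓝 (1 : D), ∀ l : List D, l.length ≤ n → (∀ g ∈ l, g ∈ W) →
      l.prod ∈ V ∧ Psi l.prod = (l.map Psi).prod := by
  have h1 := hL.one
  obtain ⟨U, hU, hm⟩ := hL
  induction n generalizing V with
  | zero =>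
    refine ⟨Set.univ, univ_mem, fun l hl _ => ?_⟩
    rw [Nat.le_zero, List.length_eq_zero_iff] at hl
    subst hl
    exact ⟨mem_of_mem_nhds hV, by simpa using h1⟩
  | succ n ih =>
    have h2 : Tendsto (fun p : D × D => p.1 * p.2) (𝓝 ((1 : D), (1 : D))) (𝓝 1) := by
      have : ContinuousAt (fun p : D × D => p.1 * p.2) ((1 : D), (1 : D)) :=
        continuousAt_fst.mul continuousAt_snd
      have := this.tendsto
      simpa only [mul_one] using this
    have h3 := h2.eventually hV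
    rw [nhds_prod_eq] at h3
    obtain ⟨A, hA, B, hB, hAB⟩ := Filter.mem_prod_iff.mp h3
    obtain ⟨W, hW, hl⟩ := ih (Filter.inter_mem hU (Filter.inter_mem hB hV))
    refine ⟨W ∩ (A ∩ U), Filter.inter_mem hW (Filter.inter_mem hA hU), fun l hn hg => ?_⟩
    cases l with
    | nil => exact ⟨mem_of_mem_nhds hV, by simpa using h1⟩
    | cons a l =>
      have ha := hg a List.mem_cons_self
      obtain ⟨h4, h5⟩ := hl l (by simpa using hn) fun g hg' =>
        (hg g (List.mem_cons_of_mem _ hg')).1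
      rw [List.prod_cons, List.map_cons, List.prod_cons, hm _ ha.2.2 _ h4.1, h5]
      exact ⟨hAB (Set.mk_mem_prod ha.2.1 h4.2.1), rfl⟩

end top

section nrd

variable {K D Ω : Type*} [Field K] [DivisionRing D] [Algebra K D] [Algebra.IsCentral K D]
  [FiniteDimensional K D] [Field Ω] [Algebra K Ω] {n : ℕ}

/-- The evaluation of a product of linear factors at a central element. -/
theorem eval_hp_central (l : List (D → D)) (w : D) (z : K) :
    (hp l w).eval (algebraMap K D z) =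
      (l.map fun x => algebraMap K D z - x w * w * (x w)⁻¹).prod := by
  induction l with
  | nil => rw [hp_nil, eval_one, List.map_nil, List.prod_nil]
  | cons x l ih =>
    rw [hp_cons, eval_sub_mul, ih, List.map_cons, List.prod_cons, sub_mul,
      Algebra.commutes z]

/-- The reduced norm of `1 + t w` is a product of conjugates. -/
theorem nrd_one_add (hn : 0 < n) (hdeg : finrank K D = n ^ 2)
    (f : D →ₐ[K] Matrix (Fin n) (Fin n) Ω) {l : List (D → D)} (hl : l.length = n) {w : D}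
    (hw : ∀ P : K[X], P.Monic → P.natDegree = n → aeval w P = 0 →
      P.map (algebraMap K D) = hp l w) (hx : ∀ x ∈ l, x w ≠ 0) {t : K} (ht : t ≠ 0) {c : K}
    (hc : (f (1 + algebraMap K D t * w)).det = algebraMap K Ω c) :
    algebraMap K D c = (l.map fun x => x w * (1 + algebraMap K D t * w) * (x w)⁻¹).prod := by
  obtain ⟨P, hPm, hPn, hP⟩ := H268.exists_charpoly hn hdeg f w
  have : NeZero n := ⟨hn.ne'⟩
  have hfi : Function.Injective f := (f : D →+* Matrix (Fin n) (Fin n) Ω).injective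
  have hPw : aeval w P = 0 := by
    apply hfi
    rw [map_zero, ← aeval_algHom_apply]
    have h1 := Matrix.aeval_self_charpoly (f w)
    rw [hP] at h1
    rw [← h1, aeval_map_algebraMap]
  have h2 := hw P hPm hPn hPw
  have hc1 : c = (-t) ^ n * P.eval (-t⁻¹) := by
    apply (algebraMap K Ω).injective
    rw [← hc, map_mul, map_pow, ← Polynomial.eval_map_apply, ← hP, Matrix.eval_charpoly]
    have h3 := Matrix.det_smul (Matrix.scalar (Fin n) ((algebraMap K Ω) (-t⁻¹)) - f w)
      (algebraMap K Ω (-t))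
    rw [Fintype.card_fin] at h3
    rw [← h3]
    congr 1
    rw [map_add, map_one, map_mul, AlgHom.commutes, smul_sub]
    have ht' : algebraMap K Ω (-t) * algebraMap K Ω (-t⁻¹) = 1 := by
      rw [← map_mul, neg_mul_neg, mul_inv_cancel₀ ht, map_one]
    have h4 : algebraMap K Ω (-t) • Matrix.scalar (Fin n) (algebraMap K Ω (-t⁻¹)) =
        (1 : Matrix (Fin n) (Fin n) Ω) := by
      rw [Matrix.scalar_apply, ← Matrix.diagonal_smul, ← Matrix.diagonal_one]
      congr 1
      ext i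
      exact ht'
    rw [h4, map_neg, neg_smul, sub_neg_eq_add, Algebra.smul_def]
    rfl
  have h5 : algebraMap K D (P.eval (-t⁻¹)) = (hp l w).eval (algebraMap K D (-t⁻¹)) := by
    rw [← h2, eval_map_algebraMap, aeval_algebraMap_apply, coe_aeval_eq_eval]
  rw [hc1, map_mul, h5, eval_hp_central, map_pow, ← hl]
  clear hl hw h2 h5
  induction l with
  | nil => simp
  | cons x l ih =>
    rw [List.length_cons, List.map_cons, List.map_cons, List.prod_cons, List.prod_cons,
      ← ih (fun y hy => hx y (List.mem_cons_of_mem _ hy)), pow_succ]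
    have h6 : x w * (1 + algebraMap K D t * w) * (x w)⁻¹ =
        algebraMap K D (-t) * (algebraMap K D (-t⁻¹) - x w * w * (x w)⁻¹) := by
      rw [mul_sub, ← map_mul, neg_mul_neg, mul_inv_cancel₀ ht, map_one, map_neg, neg_mul,
        sub_neg_eq_add, mul_add, add_mul, mul_one, mul_inv_cancel₀ (hx x List.mem_cons_self),
        ← mul_assoc (x w), ← Algebra.commutes t (x w)]
      simp only [mul_assoc]
    have h7 : ∀ b p : D, algebraMap K D (-t) ^ l.length * algebraMap K D (-t) * (b * p) =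
        algebraMap K D (-t) * b * (algebraMap K D (-t) ^ l.length * p) := by
      intro b p
      rw [← map_pow, ← Algebra.commutes (-t) (algebraMap K D ((-t) ^ l.length)), mul_assoc,
        ← mul_assoc (algebraMap K D ((-t) ^ l.length)), Algebra.commutes ((-t) ^ l.length) b]
      simp only [mul_assoc]
    rw [h6]
    exact h7 _ _

end nrd

section main

variable {K D Ω E : Type*} [Field K] [DivisionRing D] [Algebra K D] [Algebra.IsCentral K D]
  [FiniteDimensional K D] [TopologicalSpace D] [IsTopologicalRing D] [ContinuousInv₀ D]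
  [T1Space D] [Field Ω] [Algebra K Ω] {n : ℕ} [CommGroup E]

/-- **The value at the reduced norm.** -/
theorem psi_nrd (hn : 0 < n) (hdeg : finrank K D = n ^ 2)
    (f : D →ₐ[K] Matrix (Fin n) (Fin n) Ω) {e : D} (he : (minpoly K e).natDegree = n)
    (hK : ∀ V ∈ 𝓝 (0 : D), ∃ t : K, t ≠ 0 ∧ algebraMap K D t ∈ V) {Psi : D → E}
    (hL : LocHom Psi) (hC : ConjInv Psi) :
    ∀ᶠ g in 𝓝 (1 : D), ∀ c : K, (f g).det = algebraMap K Ω c →
      Psi (algebraMap K D c) = Psi g ^ n := by
  obtain ⟨V, hV, hm⟩ := id hL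
  -- quotients of elements of `V1` are in `V`
  obtain ⟨V1, hV1, hV10, hV1V, hV1q⟩ : ∃ V1 ∈ 𝓝 (1 : D), (∀ a ∈ V1, a ≠ 0) ∧ V1 ⊆ V ∧
      ∀ a ∈ V1, ∀ b ∈ V1, a * b⁻¹ ∈ V := by
    have h1 : Tendsto (fun p : D × D => p.1 * p.2⁻¹) (𝓝 ((1 : D), (1 : D))) (𝓝 1) := by
      have h2 : ContinuousAt (fun p : D × D => p.1 * p.2⁻¹) ((1 : D), (1 : D)) :=
        continuousAt_fst.mul (continuousAt_snd.inv₀ one_ne_zero)
      have h3 := h2.tendsto
      simpa only [inv_one, mul_one] using h3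
    have h4 := h1.eventually hV
    rw [nhds_prod_eq] at h4
    obtain ⟨A, hA, B, hB, hAB⟩ := Filter.mem_prod_iff.mp h4
    exact ⟨A ∩ B ∩ (V ∩ {a | a ≠ 0}), Filter.inter_mem (Filter.inter_mem hA hB)
      (Filter.inter_mem hV (ev_ne_zero one_ne_zero)), fun a ha => ha.2.2, fun a ha => ha.2.1,
      fun a ha b hb => hAB (Set.mk_mem_prod ha.1.1 hb.1.2)⟩
  obtain ⟨V2, hV2, hprod⟩ := list_prod_near hL n hV1
  obtain ⟨l, hl, hc, hw⟩ := exists_wed (K := K) e n he
  -- near `(e, 0)`
  have hlim : Tendsto (fun p : D × D => 1 + p.2 * p.1) (𝓝 (e, 0)) (𝓝 1) := by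
    have h1 : ContinuousAt (fun p : D × D => 1 + p.2 * p.1) (e, 0) :=
      continuousAt_const.add (continuousAt_snd.mul continuousAt_fst)
    have h2 := h1.tendsto
    simpa only [zero_mul, add_zero] using h2
  have key : ∀ x ∈ l, ∀ᶠ p in 𝓝 ((e, 0) : D × D), x p.1 ≠ 0 ∧
      x p.1 * (1 + p.2 * p.1) * (x p.1)⁻¹ ∈ V2 ∧
      Psi (x p.1 * (1 + p.2 * p.1) * (x p.1)⁻¹) = Psi (1 + p.2 * p.1) := by
    intro x hx
    obtain ⟨hxc, hx0⟩ := hc x hx
    have hx1 : Tendsto (fun p : D × D => x p.1) (𝓝 (e, 0)) (𝓝 (x e)) :=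
      hxc.tendsto.comp (continuousAt_fst (p := ((e, 0) : D × D))).tendsto
    have h2 : Tendsto (fun p : D × D => (x p.1, 1 + p.2 * p.1)) (𝓝 (e, 0)) (𝓝 (x e, 1)) :=
      hx1.prodMk_nhds hlim
    have h3 : Tendsto (fun p : D × D => x p.1 * (1 + p.2 * p.1) * (x p.1)⁻¹) (𝓝 (e, 0))
        (𝓝 1) := by
      have h4 := (hx1.mul hlim).mul (hx1.inv₀ hx0)
      rwa [mul_one, mul_inv_cancel₀ hx0] at h4
    filter_upwards [hx1.eventually (ev_ne_zero hx0), h3.eventually hV2,
      h2.eventually (conj_near hL hC hx0)] with p h5 h6 h7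
    exact ⟨h5, h6, h7⟩
  have key2 : ∀ᶠ p in 𝓝 ((e, 0) : D × D), ∀ x ∈ l, x p.1 ≠ 0 ∧
      x p.1 * (1 + p.2 * p.1) * (x p.1)⁻¹ ∈ V2 ∧
      Psi (x p.1 * (1 + p.2 * p.1) * (x p.1)⁻¹) = Psi (1 + p.2 * p.1) :=
    (l.finite_toSet.eventually_all (l := 𝓝 ((e, 0) : D × D))).mpr key
  have key3 := key2.and (hlim.eventually hV1)
  rw [nhds_prod_eq] at key3
  obtain ⟨A, hA, S, hS, hAS⟩ := Filter.mem_prod_iff.mp key3
  obtain ⟨t, ht0, htS⟩ := hK S hS
  -- the statement for the elements `1 + t w`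
  have main : ∀ w ∈ A, ∀ c : K, (f (1 + algebraMap K D t * w)).det = algebraMap K Ω c →
      algebraMap K D c ∈ V1 ∧ Psi (algebraMap K D c) = Psi (1 + algebraMap K D t * w) ^ n := by
    intro w hwA c hcw
    have h1 := (hAS (Set.mk_mem_prod hwA htS)).1
    have h2 := nrd_one_add hn hdeg f hl (hw w fun x hx => (h1 x hx).1)
      (fun x hx => (h1 x hx).1) ht0 hcw
    obtain ⟨h3, h4⟩ := hprod (l.map fun x => x w * (1 + algebraMap K D t * w) * (x w)⁻¹)
      (by rw [List.length_map, hl]) (by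
        intro g hg
        obtain ⟨x, hx, rfl⟩ := List.mem_map.mp hg
        exact (h1 x hx).2.1)
    rw [← h2] at h3 h4
    refine ⟨h3, ?_⟩
    rw [h4, List.map_map, ← hl]
    have h5 : l.map (Psi ∘ fun x => x w * (1 + algebraMap K D t * w) * (x w)⁻¹) =
        l.map fun _ => Psi (1 + algebraMap K D t * w) :=
      List.map_congr_left fun x hx => (h1 x hx).2.2
    rw [h5, List.map_const', List.prod_replicate]
  have heA : e ∈ A := mem_of_mem_nhds hA
  have he1 : (1 + algebraMap K D t * e) ∈ V1 := (hAS (Set.mk_mem_prod heA htS)).2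
  have htD : algebraMap K D t ≠ 0 := (_root_.map_ne_zero _).mpr ht0
  obtain ⟨c1, hc1⟩ := H268.exists_nrd hn hdeg f (1 + algebraMap K D t * e)
  obtain ⟨h1, h2⟩ := main e heA c1 hc1
  have hg : Tendsto (fun g : D => e + (algebraMap K D t)⁻¹ *
      ((g - 1) * (1 + algebraMap K D t * e))) (𝓝 1) (𝓝 e) := by
    have h3 : ContinuousAt (fun g : D => e + (algebraMap K D t)⁻¹ *
        ((g - 1) * (1 + algebraMap K D t * e))) 1 :=
      continuousAt_const.add (continuousAt_const.mul
        ((continuousAt_id.sub continuousAt_const).mul continuousAt_const))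
    have h4 := h3.tendsto
    simpa only [sub_self, zero_mul, mul_zero, add_zero] using h4
  filter_upwards [hg.eventually hA, hV] with g hgA hgV c hcg
  obtain ⟨w, hwdef⟩ : ∃ w, w = e + (algebraMap K D t)⁻¹ *
      ((g - 1) * (1 + algebraMap K D t * e)) := ⟨_, rfl⟩
  rw [← hwdef] at hgA
  have h5 : 1 + algebraMap K D t * w = g * (1 + algebraMap K D t * e) := by
    rw [hwdef, mul_add, mul_inv_cancel_left₀ htD]
    noncomm_ring
  have h6 : (f (1 + algebraMap K D t * w)).det = algebraMap K Ω (c * c1) := by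
    rw [h5, map_mul, Matrix.det_mul, hcg, hc1, map_mul]
  obtain ⟨h7, h8⟩ := main w hgA (c * c1) h6
  have hc10 : algebraMap K D c1 ≠ 0 := hV10 _ h1
  have h9 : algebraMap K D c ∈ V := by
    have h10 := hV1q _ h7 _ h1
    rwa [map_mul, mul_inv_cancel_right₀ hc10] at h10
  rw [map_mul, hm _ h9 _ (hV1V h1), h2, h5, hm _ hgV _ (hV1V he1), mul_pow] at h8
  exact mul_right_cancel h8

end main

end Vale.Agent.P011.H97c
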