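import Vale.Agent.P011.H132.Wedd

/-!
**The factorization of Wedderburn with continuous conjugators.**  `D` is a topological division
ring, central over `K`, and `e` generates a field of degree `n` over `K`.  For all `w` close to `e`
every monic polynomial of degree `n` over `K` which vanishes at `w` is a product of factors
`X - x w x⁻¹` where the conjugators `x` are continuous functions of `w`, invertible at `e`.
-/

open Polynomial Topology Filter

set_option linter.unusedSectionVars false

namespace Vale.Agent.P011.H97c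

open Vale.Agent.P011.H132.Wedd

section poly

variable {D : Type*} [DivisionRing D]

/-- The product of the linear factors given by a list of conjugators, at the point `w`. -/
noncomputable def hp (l : List (D → D)) (w : D) : D[X] :=
  (l.map fun x => X - C (x w * w * (x w)⁻¹)).prod

theorem hp_nil (w : D) : hp ([] : List (D → D)) w = 1 := by simp [hp]

theorem hp_cons (x : D → D) (l : List (D → D)) (w : D) :
    hp (x :: l) w = (X - C (x w * w * (x w)⁻¹)) * hp l w := by
  simp [hp]

theorem hp_monic (l : List (D → D)) (w : D) : (hp l w).Monic ∧ (hp l w).natDegree = l.length := by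
  induction l with
  | nil => rw [hp_nil]; exact ⟨monic_one, by simp⟩
  | cons x l ih =>
    rw [hp_cons]
    refine ⟨(monic_X_sub_C _).mul ih.1, ?_⟩
    rw [(monic_X_sub_C _).natDegree_mul ih.1, natDegree_X_sub_C, ih.2, List.length_cons,
      Nat.add_comm]

theorem eval_sub_mul (a : D) (h : D[X]) (z : D) :
    ((X - C a) * h).eval z = h.eval z * z - a * h.eval z := by
  rw [sub_mul, eval_sub, X_mul, eval_mul_X, eval_C_mul]

end poly

section cont

variable {D : Type*} [DivisionRing D] [TopologicalSpace D] [IsTopologicalRing D]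
  [ContinuousInv₀ D]

/-- The value of the product is continuous. -/
theorem hp_cont (e : D) : ∀ l : List (D → D), (∀ x ∈ l, ContinuousAt x e ∧ x e ≠ 0) → ∀ z : D,
    ContinuousAt (fun p : D × D => (hp l p.1).eval p.2) (e, z) := by
  intro l
  induction l with
  | nil =>
    intro _ z
    simp only [hp_nil, eval_one]
    exact continuousAt_const
  | cons x l ih =>
    intro h z
    have h1 := ih (fun y hy => h y (List.mem_cons_of_mem _ hy)) z
    obtain ⟨hx, hx0⟩ := h x List.mem_cons_self
    simp only [hp_cons, eval_sub_mul]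
    have hx1 : ContinuousAt (fun p : D × D => x p.1) (e, z) :=
      ContinuousAt.comp (f := Prod.fst) (g := x) (x := (e, z)) hx continuousAt_fst
    exact (h1.mul continuousAt_snd).sub
      (((hx1.mul continuousAt_fst).mul (hx1.inv₀ hx0)).mul h1)

variable {K : Type*} [Field K] [Algebra K D]

omit [TopologicalSpace D] [IsTopologicalRing D] [ContinuousInv₀ D] in
theorem eval_conjP (P : K[X]) (w g : D) (hg : g ≠ 0) :
    (P.map (algebraMap K D)).eval (g * w * g⁻¹) = g * aeval w P * g⁻¹ := by
  have hp : ∀ n : ℕ, (g * w * g⁻¹) ^ n = g * w ^ n * g⁻¹ := by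
    intro n
    induction n with
    | zero => rw [pow_zero, pow_zero, mul_one, mul_inv_cancel₀ hg]
    | succ n ih =>
      rw [pow_succ, ih, pow_succ]
      simp only [mul_assoc, inv_mul_cancel_left₀ hg]
  rw [eval_map_algebraMap]
  induction P using Polynomial.induction_on' with
  | add p q hp hq => rw [map_add, map_add, hp, hq, mul_add, add_mul]
  | monomial n c =>
    rw [aeval_monomial, aeval_monomial, hp, ← mul_assoc, ← mul_assoc, ← mul_assoc,
      Algebra.commutes c g]

variable [Algebra.IsCentral K D]

/-- **The conjugators.** -/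
theorem exists_conj (e : D) : ∀ j : ℕ, j ≤ (minpoly K e).natDegree →
    ∃ l : List (D → D), l.length = j ∧ (∀ x ∈ l, ContinuousAt x e ∧ x e ≠ 0) ∧
      ∀ w : D, (∀ x ∈ l, x w ≠ 0) → ∀ P : K[X], aeval w P = 0 →
        ∃ q : D[X], P.map (algebraMap K D) = q * hp l w := by
  intro j
  induction j with
  | zero =>
    intro _
    refine ⟨[], rfl, fun x hx => absurd hx (by simp), fun w _ P _ => ⟨P.map (algebraMap K D), ?_⟩⟩
    rw [hp_nil, mul_one]
  | succ j ih =>
    intro hj
    obtain ⟨l, hl, hc, hw⟩ := ih (by omega)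
    obtain ⟨hm, hd⟩ := hp_monic l e
    have h1 : ∃ y : D, y ≠ 0 ∧ (hp l e).eval (y * e * y⁻¹) ≠ 0 := by
      by_contra hcon
      push Not at hcon
      have := le_natDegree (K := K) (w := e) _ (hp l e) hm.ne_zero rfl hcon
      omega
    obtain ⟨y, hy, hye⟩ := h1
    let x : D → D := fun w => (hp l w).eval (y * w * y⁻¹) * y
    have hx0 : x e ≠ 0 := mul_ne_zero hye hy
    have hxc : ContinuousAt x e := by
      have h2 : ContinuousAt (fun w : D => ((w, y * w * y⁻¹) : D × D)) e :=
        continuousAt_id.prodMk ((continuousAt_const.mul continuousAt_id).mul continuousAt_const)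
      have h3 := hp_cont e l hc (y * e * y⁻¹)
      have h4 : ContinuousAt (fun w : D => (hp l w).eval (y * w * y⁻¹)) e :=
        ContinuousAt.comp (f := fun w : D => ((w, y * w * y⁻¹) : D × D))
          (g := fun p : D × D => (hp l p.1).eval p.2) h3 h2
      exact h4.mul continuousAt_const
    refine ⟨x :: l, by rw [List.length_cons, hl], ?_, ?_⟩
    · intro x' hx'
      rcases List.mem_cons.mp hx' with rfl | h
      · exact ⟨hxc, hx0⟩
      · exact hc x' h
    · intro w hxw P hP
      have hw1 := hw w (fun x' hx' => hxw x' (List.mem_cons_of_mem _ hx')) P hP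
      obtain ⟨q, hq⟩ := hw1
      have hxw0 : x w ≠ 0 := hxw x List.mem_cons_self
      have hb : (hp l w).eval (y * w * y⁻¹) ≠ 0 := left_ne_zero_of_mul hxw0
      have h5 : (P.map (algebraMap K D)).eval (y * w * y⁻¹) = 0 := by
        rw [eval_conjP P w y hy, hP, mul_zero, zero_mul]
      rw [hq, eval_mul_of_ne _ _ _ hb] at h5
      have h6 := (mul_eq_zero.mp h5).resolve_right hb
      have h7 : (hp l w).eval (y * w * y⁻¹) * (y * w * y⁻¹) *
          ((hp l w).eval (y * w * y⁻¹))⁻¹ = x w * w * (x w)⁻¹ := by
        change _ = (hp l w).eval (y * w * y⁻¹) * y * w * ((hp l w).eval (y * w * y⁻¹) * y)⁻¹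
        rw [mul_inv_rev]
        simp only [mul_assoc]
      rw [h7] at h6
      obtain ⟨q', hq'⟩ := exists_factor q _ h6
      refine ⟨q', ?_⟩
      rw [hp_cons, ← mul_assoc, ← hq']
      exact hq

/-- **Wedderburn's factorization near an element of maximal degree.** -/
theorem exists_wed (e : D) (n : ℕ) (hn : (minpoly K e).natDegree = n) :
    ∃ l : List (D → D), l.length = n ∧ (∀ x ∈ l, ContinuousAt x e ∧ x e ≠ 0) ∧
      ∀ w : D, (∀ x ∈ l, x w ≠ 0) → ∀ P : K[X], P.Monic → P.natDegree = n → aeval w P = 0 →
        P.map (algebraMap K D) = hp l w := by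
  obtain ⟨l, hl, hc, hw⟩ := exists_conj (K := K) e n hn.ge
  refine ⟨l, hl, hc, fun w hxw P hPm hPn hP => ?_⟩
  obtain ⟨q, hq⟩ := hw w hxw P hP
  obtain ⟨hm, hd⟩ := hp_monic l w
  have hq1 : q.Monic := by
    have h1 : (q * hp l w).Monic := hq ▸ hPm.map _
    rw [Monic, leadingCoeff_mul, hm.leadingCoeff, mul_one] at h1
    exact h1
  have hq0 : q.natDegree = 0 := by
    have h1 := congrArg natDegree hq
    rw [hq1.natDegree_mul hm, natDegree_map, hPn, hd, hl] at h1
    omega
  rw [hq, hq1.natDegree_eq_zero.mp hq0, one_mul]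

end cont

end Vale.Agent.P011.H97c
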